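import Vale.Agent.P269C.Spec

/-!
# P269, block C: the forms `psi` (row PSI)
-/

set_option autoImplicit false
set_option linter.all false

noncomputable section

namespace Vale.Agent.P269CP

open Set Filter Vale.Agent.P273.H183 Vale.Agent.P272.K Vale.Agent.P269C
open scoped Topology ContDiff Matrix

variable {L : Type} {m m' : ℕ} {C : Fam L m} {C' : Fam L m'}

theorem two_le : (2 : WithTop ℕ∞) ≤ ∞ := WithTop.coe_le_coe.2 (le_top : (2 : ℕ∞) ≤ ⊤)

theorem s_mem (hC : C.IsStable) {b : Cm m} (hb : b ∈ C.B) (i : L) : C.π (C.s i b) = b :=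
  ((hC.2.2.2.2.2 b hb).2.1 i).1

theorem s_cont (hC : C.IsStable) {b : Cm m} (hb : b ∈ C.B) (i : L) : ContinuousAt (C.s i) b :=
  ((hC.2.2.2.2.2 b hb).2.1 i).2.1

theorem s_an (hC : C.IsStable) {b : Cm m} (hb : b ∈ C.B) (i : L) {f : C.X → ℂ}
    (hf : C.hol f (C.s i b)) : AnalyticAt ℂ (fun a => f (C.s i a)) b :=
  ((hC.2.2.2.2.2 b hb).2.1 i).2.2.1 f hf

theorem s_sp (hC : C.IsStable) {b : Cm m} (hb : b ∈ C.B) (i : L) : Sp C (C.s i b) :=
  ((hC.2.2.2.2.2 b hb).2.1 i).2.2.2.2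

theorem ev_B (hC : C.IsStable) {b : Cm m} (hb : b ∈ C.B) : ∀ᶠ a in 𝓝 b, a ∈ C.B :=
  hC.1.mem_nhds hb

theorem mor_id (k1 : K1) (hC : C.IsStable) {b : Cm m} (hb : b ∈ C.B) :
    ∀ᶠ a in 𝓝 b, Mor C C (fun x => x) id a := by
  filter_upwards [ev_B hC hb] with a ha
  exact ⟨ha, analyticAt_id, k1.refl C a, fun p _ => ⟨continuousAt_id, fun f hf => hf⟩⟩

theorem ev_co (k2 : K2) (hC : C.IsStable) {b : Cm m} (hb : b ∈ C.B) (i : L) {z : C.X → ℂ}
    (h1 : C.hol z (C.s i b)) (h2 : Co C z (C.s i b)) :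
    ∀ᶠ a in 𝓝 b, C.hol z (C.s i a) ∧ Co C z (C.s i a) :=
  (s_cont hC hb i).eventually (k2.ev hC h1 h2)

theorem gauge (hc : CHN) (k1 : K1) (k2 : K2) {h : Hm L} {φ : Cm m' → Cm m} {Φ : C'.X → C.X}
    (hh : IsPsi h) (hC : C.IsStable) (hC' : C'.IsStable) {b : Cm m'} (hb : b ∈ C'.B)
    (hM : ∀ᶠ a in 𝓝 b, Mor C' C φ Φ a) (i : L) {z : C.X → ℂ} {z' : C'.X → ℂ}
    (h1 : C.hol z (C.s i (φ b))) (h2 : Co C z (C.s i (φ b)))
    (h1' : C'.hol z' (C'.s i b)) (h2' : Co C' z' (C'.s i b)) :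
    chern (fun a => !![(h m' C' a i z' : ℂ)]) 1 b =
      pb (jac φ b) (chern (fun a => !![(h m C a i z : ℂ)]) 1 (φ b)) := by
  obtain ⟨hφ, ha, hI, hp⟩ := hM.self_of_nhds
  have hs := s_mem hC' hb i
  have e := (k1.fg.1 hI).2 i hs
  have f1 : C'.hol (fun q => z (Φ q)) (C'.s i b) := (hp _ hs).2 z (by rwa [e])
  have f2 : Co C' (fun q => z (Φ q)) (C'.s i b) :=
    ((k1.nf hC' hC (k1.fg.1 hI).1 _ hs).2.2.1 z).1 (by rwa [e])
  obtain ⟨c, c1, c2⟩ := k2.drh hC' f1 f2 h1'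
  have c0 : c (C'.s i b) ≠ 0 := (k2.ne hC' f2 h2'.1 c2.self_of_nhds).1 h2'
  obtain ⟨p0, p1⟩ := hh.2 m C hC _ hφ i z h1 h2
  refine hc.nat φ b _ (fun a => !![c (C'.s i a)]) _ 1 ha (fun p q => ?_) ?_ (fun p q => ?_) ?_ ?_
  · have : ContDiffAt ℝ 2 (fun a => (h m C a i z : ℂ)) (φ b) :=
      Complex.ofRealCLM.contDiff.contDiffAt.comp _ (p1.of_le two_le)
    fin_cases p; fin_cases q
    simpa using this
  · simpa using p0.ne'
  · fin_cases p; fin_cases q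
    simpa using s_an hC' hb i c1
  · simpa using c0
  · filter_upwards [hM, ev_B hC' hb, (s_cont hC' hb i).eventually c2, ev_co k2 hC' hb i h1' h2',
      ha.continuousAt.eventually (ev_co k2 hC hφ i h1 h2)] with a m1 m2 m3 m4 m5
    have := hh.1 m' m C' C a (φ a) _ m1.2.2.1 i z' (fun q => z (Φ q)) z _
      (fun j => s_mem hC' m2 j) m4.2 m5.2 (fun _ => rfl) m3
    ext p q
    fin_cases p; fin_cases q
    simp [this, Matrix.mul_apply]
    rw [mul_right_comm, Complex.mul_conj, Complex.normSq_eq_norm_sq]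
    push_cast
    ring

theorem eps_co (k2 : K2) (hC : C.IsStable) {b : Cm m} (hb : b ∈ C.B) (i : L) :
    C.hol (Classical.epsilon fun z => C.hol z (C.s i b) ∧ Co C z (C.s i b)) (C.s i b) ∧
      Co C (Classical.epsilon fun z => C.hol z (C.s i b) ∧ Co C z (C.s i b)) (C.s i b) :=
  Classical.epsilon_spec (p := fun z => C.hol z (C.s i b) ∧ Co C z (C.s i b))
    (k2.ex hC (s_sp hC hb i))

theorem psi_chern (hT : TAU) (hc : CHN) (k1 : K1) (k2 : K2) {h : Hm L} (hh : IsPsi h)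
    (hC : C.IsStable) {b : Cm m} (hb : b ∈ C.B) (i : L) {z : C.X → ℂ}
    (h1 : C.hol z (C.s i b)) (h2 : Co C z (C.s i b)) :
    psi h C b i = chern (fun a => !![(h m C a i z : ℂ)]) 1 b := by
  have e := eps_co k2 hC hb i
  have := gauge hc k1 k2 hh hC hC hb (mor_id k1 hC hb) i h1 h2 e.1 e.2
  rwa [hc.jid, hT.one] at this

theorem psi_row (hT : TAU) (hc : CHN) (k1 : K1) (k2 : K2) : PSI where
  eq hh hC b hb i z h1 h2 := by
    obtain ⟨p0, p1⟩ := hh.2 _ _ hC _ hb i z h1 h2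
    rw [psi_chern hT hc k1 k2 hh hC hb i h1 h2,
      hc.line _ _ (p1.of_le two_le) p0]
  gd := by
    intro L m h C hh hC b hb i
    obtain ⟨z, h1, h2⟩ := k2.ex hC (s_sp hC hb i)
    obtain ⟨p0, p1⟩ := hh.2 _ _ hC _ hb i z h1 h2
    refine Gd.congr (Gd.ch 1 1 (fun a => !![(h m C a i z : ℂ)]) (fun p q => ?_) ?_) ?_
    · have : ContDiffAt ℝ ∞ (fun a => (h m C a i z : ℂ)) b :=
        Complex.ofRealCLM.contDiff.contDiffAt.comp _ p1
      fin_cases p; fin_cases q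
      simpa using this
    · simpa using p0.ne'
    · filter_upwards [ev_B hC hb, ev_co k2 hC hb i h1 h2] with a m1 m2
      exact psi_chern hT hc k1 k2 hh hC m1 i m2.1 m2.2
  nat hh hC hC' b hb hM i := by
    have e := eps_co k2 hC hM.self_of_nhds.1 i
    have e' := eps_co k2 hC' hb i
    exact gauge hc k1 k2 hh hC hC' hb hM i e.1 e.2 e'.1 e'.2

end Vale.Agent.P269CP
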